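import Vale.Agent.P251.Z.LazMod
import Vale.Agent.P093.N0.MU

/-!
# P241, block KP1: `π_* MU` modulo every prime and the regularity of `v_0, v_1, …`

The results of `P251/Z/LazMod.lean` for every prime `p` (`p = 2` included), from
`HA : MUAll D` (Quillen's theorem modulo every prime, P093 part N0).
-/

open CategoryTheory MonoidalCategory Limits MonObj Pretriangulated

set_option linter.unusedSectionVars false

universe v u

namespace Vale.Agent.P241.KP

open Vale.Agent.P251 Vale.Agent.P251.Z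
open Vale.Agent.P251.T Vale.Agent.P251.M Vale.Agent.P251.M.EvenSpheres Vale.Agent.P251.S
  Vale.Agent.P251.F Vale.Agent.P093.N0

variable {T : Type u} [Category.{v} T] [Preadditive T] [HasZeroObject T]
    [HasShift T ℤ] [∀ n : ℤ, (shiftFunctor T n).Additive] [Pretriangulated T] [IsTriangulated T]
    [MonoidalCategory T] [SymmetricCategory T] [TensorTriangulated T] [MonoidalClosed T]
    [HasCoproducts.{0} T] [HasProducts.{0} T] [StableCat T] {D : I.MUData T} (HA : MUAll D)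

variable {C : T} {i : 𝟙_ T ⟶ C} {p : ℕ} [Fact p.Prime] {δ : C ⟶ (𝟙_ T)⟦(1 : ℤ)⟧}
  (hC : Triangle.mk ((p : ℤ) • 𝟙 (𝟙_ T)) i δ ∈ distTriang T)

include HA hC

section base

open GD in
/-- The annihilator of the unit is generated by `p`. -/
theorem mem_span_of_smul_uN (s : ℕ) (z : Cob Laz s)
    (hz : GD.uN D i s ≫ GD.rN D C s z = 0) : z ∈ Ideal.span {(p : Cob Laz s)} := by
  choose a ha ha' using fun w => γ_wt D (Cob.isWt_proj w z)
  have h1 : ∀ w ∈ Cob.wts z, ∃ y : Cob Laz s, Cob.proj w z = (p : ℤ) • y := by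
    intro w hw
    have h2 : uN D i s ≫ rN D C s z = ∑ v ∈ Cob.wts z,
        sharp (a v ≫ (ρ_ (Am D.R (s + 1))).inv ≫ (Am D.R (s + 1) ◁ i)) := by
      conv_lhs => rw [← Cob.sum_proj z, map_sum]
      refine (Preadditive.comp_sum _ _ _).trans (Finset.sum_congr rfl fun v _ => ?_)
      exact uN_rN D i s (ha v)
    rw [h2] at hz
    have h3 := congrArg (fun f => f ≫ ((Am D.R (s + 1) ⊗ C) ◁ wq (stdEven T) w)) hz
    simp only [Preadditive.sum_comp, zero_comp] at h3
    rw [Finset.sum_eq_single w (fun v _ hvw => sharp_wq_ne _ _ hvw _)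
      (fun hw' => absurd hw hw'), sharp_wq _ _ rfl] at h3
    obtain ⟨y, -, hy⟩ := HA.ker p s C i δ hC w _ (Cob.isWt_proj w z) (a w) (ha w)
      (sharp_injective w h3)
    exact ⟨y, hy⟩
  rw [← Cob.sum_proj z]
  refine sum_mem fun w hw => ?_
  obtain ⟨y, hy⟩ := h1 w hw
  rw [hy, zsmul_eq_mul, Int.cast_natCast]
  exact Ideal.mul_mem_right _ _ (Ideal.mem_span_singleton_self _)


end base

theorem oddZero_X (s : ℕ) : OddZero (Am D.R (s + 1) ⊗ C) := by
  intro n hn f
  obtain ⟨k, rfl⟩ := hn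
  exact HA.odd p s C i δ hC k f

theorem oddZero_N (s : ℕ) : OddZero ((Am D.R (s + 1) ⊗ C) ⊗ (stdEven T).PS) :=
  OddZero.coprod fun m => (oddZero_X HA hC s).tensS m


/-- (C1) `L ⟶ π_{2*} R` is onto modulo `p`. -/
theorem exists_L0_add (x : HRing (stdEven T) D.R) :
    ∃ (z : Laz) (y : HRing (stdEven T) D.R), x = L0 D z + (p : HRing (stdEven T) D.R) * y := by
  induction x using DirectSum.induction_on with
  | zero => exact ⟨0, 0, by simp⟩
  | add x x' hx hx' =>
    obtain ⟨z, y, rfl⟩ := hx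
    obtain ⟨z', y', rfl⟩ := hx'
    exact ⟨z + z', y + y', by rw [map_add]; ring⟩
  | of w a =>
    obtain ⟨z, b, -, hz, hf⟩ := HA.surj p 0 C i δ hC w
      ((a ≫ (λ_ D.R).inv) ≫ (redC i).app (Am D.R 1))
    obtain ⟨x, rfl⟩ := C_surj z
    obtain ⟨c, hc⟩ := exists_zsmul_of_red hC (a ≫ (λ_ D.R).inv - b) (by
      rw [Preadditive.sub_comp, sub_eq_zero]
      exact hf)
    refine ⟨x, HRing.of (stdEven T) D.R w (c ≫ I.amOne D.R), ?_⟩
    have h1 : a = b ≫ I.amOne D.R + (p : ℤ) • (c ≫ I.amOne D.R) := by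
      rw [← Preadditive.zsmul_comp, hc, Preadditive.sub_comp, add_sub_cancel, Category.assoc]
      exact (Category.comp_id a).symm.trans (congrArg (a ≫ ·) (λ_ D.R).inv_hom_id.symm)
    change HRing.of (stdEven T) D.R w a = _
    conv_lhs => rw [h1]
    rw [L0_eq, hz, HRing.map_of]
    change DirectSum.of _ w _ = _
    rw [map_add, map_zsmul, zsmul_eq_mul, Int.cast_natCast]

/-- (C2) `L/p ⟶ π_{2*} R/p` is injective. -/
theorem exists_of_L0_eq (z : Laz) (y : HRing (stdEven T) D.R)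
    (h : L0 D z = (p : HRing (stdEven T) D.R) * y) : ∃ z' : Laz, z = (p : Laz) * z' := by
  have h1 : GD.uN D i 0 ≫ (GD.rN D C 0 (MvPolynomial.C z) : _ ⟶ _) = 0 := by
    have h0 : GD.rN D C 0 (MvPolynomial.C z) = (p : ℤ) • ((GD.MN D C 0).smr
        (sharpHom _ (HRing.map (Am.v D.R (0 : Fin 1)) y)) : _ ⟶ _) := by
      rw [GD.rN, GD.γ, RingHom.comp_apply, RingHom.comp_apply, ← map_L0, h, map_mul, map_natCast,
        map_mul, map_natCast, map_mul, map_natCast]
      exact ((natCast_zsmul _ p).trans (nsmul_eq_mul _ _)).symm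
    rw [h0, Preadditive.comp_zsmul, ← Preadditive.zsmul_comp, GD.p_uN D hC, zero_comp]
  have h2 := mem_span_of_smul_uN HA hC 0 _ h1
  obtain ⟨c, hc⟩ := Ideal.mem_span_singleton'.1 h2
  obtain ⟨z', rfl⟩ := C_surj c
  refine ⟨z', ?_⟩
  have h3 : (MvPolynomial.C (z' * (p : Laz)) : Cob Laz 0) = MvPolynomial.C z := by
    rw [map_mul, map_natCast, hc]
  rw [mul_comm]
  exact (MvPolynomial.C_injective (Fin 0 × ℕ) Laz h3).symm


/-- `π_0 P ⟶ π_0 (P ⊗ C)` is onto -/
theorem sur_P_one : Sur i D.P (𝟙_ T) := by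
  have key : ∀ x : HMod (stdEven T) (Am D.R 1 ⊗ C), ∃ g' : 𝟙_ T ⟶ Am D.R 1 ⊗ (stdEven T).PS,
      g' ≫ (redC i).app (Am D.R 1) ▷ (stdEven T).PS = sharpTot (stdEven T) _ x := by
    intro x
    induction x using DirectSum.induction_on with
    | zero => exact ⟨0, by rw [map_zero, zero_comp]⟩
    | add x x' hx hx' =>
      obtain ⟨g, hg⟩ := hx
      obtain ⟨g', hg'⟩ := hx'
      exact ⟨g + g', by rw [map_add, Preadditive.add_comp, hg, hg']⟩
    | of w a =>
      obtain ⟨z, b, -, hz, hf⟩ := HA.surj p 0 C i δ hC w a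
      refine ⟨sharp b, ?_⟩
      rw [← sharp_comp, sharpTot_of, hf]
      rfl
  have h1 : Sur i (Am D.R 1 ⊗ (stdEven T).PS) (𝟙_ T) := by
    intro g
    obtain ⟨x, hx⟩ := sharpTot_surjective (E := stdEven T) (Am D.R 1 ⊗ C)
      (g ≫ (swapR (Am D.R 1) C (stdEven T).PS).inv)
    obtain ⟨g', hg'⟩ := key x
    refine ⟨g', ?_⟩
    rw [redC_tensor, ← Category.assoc, hg', hx, Category.assoc, Iso.inv_hom_id, Category.comp_id]
  exact h1.conj (whiskerRightIso (λ_ D.R) _)

theorem sur_P_even (w : ℤ) : Sur i D.P ((stdEven T).S w) := by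
  refine Sur.of_whiskerRight ((stdEven T).S (-w)) ?_
  refine Sur.iso_src ((stdEven T).unitIso w) ?_
  exact (sur_P_one HA hC).conj (GD.perN D.R (-w))

/-- the odd homotopy of `P ⊗ C` vanishes -/
theorem oddZero_PC : OddZero (D.P ⊗ C) :=
  (oddZero_N HA hC 0).of_iso
    (swapR (Am D.R 1) C (stdEven T).PS ≪≫ whiskerRightIso (whiskerRightIso (λ_ D.R) _) C)

/-- (C3) the even homotopy of `P` has no `p`-torsion -/
theorem P_torsionFree_even {n : ℤ} (hn : Even n) (x : Sph T n ⟶ D.P) (h : (p : ℤ) • x = 0) :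
    x = 0 :=
  torsionFree_of_red_shift hC n (n + 1) rfl (fun g => oddZero_PC HA hC (n + 1) hn.add_one g) x h

/-- (C5) `p` is onto on the odd homotopy of `P` -/
theorem P_divisible_odd {n : ℤ} (hn : Odd n) (x : Sph T n ⟶ D.P) :
    ∃ y : Sph T n ⟶ D.P, (p : ℤ) • y = x :=
  exists_zsmul_of_red hC x (oddZero_PC HA hC n hn _)

/-- (C5) the odd homotopy of `P` has no `p`-torsion -/
theorem P_torsionFree_odd {n : ℤ} (hn : Odd n) (x : Sph T n ⟶ D.P) (h : (p : ℤ) • x = 0) :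
    x = 0 := by
  obtain ⟨w, hw⟩ := hn
  have h1 : x⟦(1 : ℤ)⟧' ≫ ((p : ℤ) • 𝟙 D.P)⟦(1 : ℤ)⟧' = 0 := by
    rw [← Functor.map_comp, Preadditive.comp_zsmul, Category.comp_id, h, Functor.map_zero]
  obtain ⟨g, hg⟩ : ∃ g : (Sph T n)⟦(1 : ℤ)⟧ ⟶ D.P ⊗ C, x⟦(1 : ℤ)⟧' = g ≫ bdC δ D.P :=
    Triangle.coyoneda_exact₁ _ (redTri_distinguished hC D.P) (x⟦(1 : ℤ)⟧') h1
  have e : (stdEven T).S (w + 1) ≅ (Sph T n)⟦(1 : ℤ)⟧ :=
    (stdEven T).sphIso (Iso.refl _) (w + 1) ≪≫
      (shiftFunctorAdd' T n 1 (2 * (w + 1)) (by rw [hw]; ring)).app (𝟙_ T)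
  obtain ⟨g', hg'⟩ := (sur_P_even HA hC (w + 1)).iso_src e g
  apply (shiftFunctor T (1 : ℤ)).map_injective
  have h2 : (redC i).app D.P ≫ bdC δ D.P = 0 :=
    comp_distTriang_mor_zero₂₃ _ (redTri_distinguished hC D.P)
  rw [hg, ← hg', Category.assoc, h2, comp_zero, Functor.map_zero]

/-! ### the ring `π_{2*} R` -/

/-- (C3) `π_{2*} R` has no `p`-torsion -/
theorem hring_torsionFree (x : HRing (stdEven T) D.R) (h : (p : HRing (stdEven T) D.R) * x = 0) :
    x = 0 := by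
  apply sharpTot_injective (E := stdEven T) D.R
  rw [map_zero]
  have h1 : (p : ℤ) • sharpTot (stdEven T) D.R x = 0 := by
    have h2 : (p : ℤ) • x = 0 := by rw [zsmul_eq_mul, Int.cast_natCast, h]
    rw [← map_zsmul, h2, map_zero]
  let e : Sph T 0 ≅ 𝟙_ T := (shiftFunctorZero T ℤ).app _
  have h3 := P_torsionFree_even HA hC (n := 0) (by simp) (e.hom ≫ sharpTot (stdEven T) D.R x)
    (by rw [← Preadditive.comp_zsmul, h1, comp_zero])
  rw [← cancel_epi e.hom, h3, comp_zero]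

/-- (C4) `v_0 = p, v_1, …` is a regular sequence in `π_{2*} R` -/
theorem hring_mem_Ih_of_mul {k : ℕ} (x : HRing (stdEven T) D.R)
    (h : vv p k D.law * x ∈ Ih p k D.law) : x ∈ Ih p k D.law := by
  rcases Nat.eq_zero_or_pos k with rfl | hk
  · have h0 : Ih p 0 D.law = ⊥ := by
      unfold Ih
      rw [Ideal.span_eq_bot]
      rintro x ⟨i, hi, -⟩
      exact absurd hi (Nat.not_lt_zero i)
    rw [h0, Ideal.mem_bot, vv_zero] at h
    rw [hring_torsionFree HA hC x h]
    exact zero_mem _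
  · have hp0 : (p : HRing (stdEven T) D.R) ∈ Ih p k D.law := by
      have := vv_mem_Ih (p := p) hk D.law
      rwa [vv_zero] at this
    have hp1 : (p : Laz) ∈ Laz.I p k := by
      have h2 : Laz.v p 0 = (p : Laz) := vv_zero p _
      rw [← h2]
      exact vv_mem_Ih hk _
    obtain ⟨z, y, rfl⟩ := exists_L0_add HA hC x
    refine add_mem ?_ (Ideal.mul_mem_right _ _ hp0)
    have h1 : L0 D (Laz.v p k * z) ∈ Ih p k D.law := by
      rw [map_mul, L0_v]
      have h2 : vv p k D.law * ((p : HRing (stdEven T) D.R) * y) ∈ Ih p k D.law :=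
        Ideal.mul_mem_left _ _ (Ideal.mul_mem_right _ _ hp0)
      have h3 := sub_mem h h2
      rwa [mul_add, add_sub_cancel_right] at h3
    obtain ⟨c, hc⟩ := exists_sum_of_mem_Ih p k D.law h1
    choose z' y' hzy using fun j => exists_L0_add HA hC (c j)
    obtain ⟨t, ht⟩ := exists_of_L0_eq HA hC
      (Laz.v p k * z - ∑ j ∈ Finset.range k, Laz.v p j * z' j)
      (∑ j ∈ Finset.range k, vv p j D.law * y' j) (by
        rw [map_sub, hc, map_sum, ← Finset.sum_sub_distrib, Finset.mul_sum]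
        refine Finset.sum_congr rfl fun j _ => ?_
        rw [map_mul, L0_v, hzy j]
        ring)
    have h4 : Laz.v p k * z ∈ Laz.I p k := by
      rw [sub_eq_iff_eq_add.1 ht]
      refine add_mem (Ideal.mul_mem_right _ _ hp1) (sum_mem fun j hj => ?_)
      exact Ideal.mul_mem_right _ _ (vv_mem_Ih (Finset.mem_range.1 hj) _)
    have h5 := mem_I_of_v_mul p le_rfl h4
    have h6 : Ih p k D.law = (Laz.I p k).map (L0 D) := by
      have h7 : D.law = Laz.univ.map (L0 D) := (Laz.univ_map_lift _).symm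
      conv_lhs => rw [h7]
      rw [Ih_map]
      rfl
    rw [h6]
    exact Ideal.mem_map_of_mem _ h5

theorem regW_P_one (h : ℕ) : RegW 0 h (vP (D.vs p)) (𝟙_ T) := by
  refine ⟨fun k hk => absurd hk (Nat.not_lt_zero k), fun j _ hjh x y hx => ?_⟩
  set e := sharpEquiv (stdEven T) D.R with he
  have hmul : ∀ (k : ℕ) (t : Sc D.P), (t.hom ≫ vP (D.vs p) k) = (e (vv p k D.law) * t : Sc D.P) := by
    intro k t
    rw [he, sharpHom_vv D p]
    exact (scMul_eq_smul (R := D.P) (D.vs p k) t.hom).symm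
  have hsum : ∀ (z : ℕ → (𝟙_ T ⟶ D.P)), (∑ k ∈ Finset.range j, z k ≫ vP (D.vs p) k) =
      (∑ k ∈ Finset.range j, e (vv p k D.law) * Sc.of (z k) : Sc D.P) := by
    intro z
    exact Finset.sum_congr rfl fun k _ => hmul k (Sc.of (z k))
  have h1 : vv p j D.law * e.symm (Sc.of x) ∈ Ih p j D.law := by
    have h2 : vv p j D.law * e.symm (Sc.of x) =
        ∑ k ∈ Finset.range j, vv p k D.law * e.symm (Sc.of (y k)) := by
      apply e.injective
      rw [map_mul, RingEquiv.apply_symm_apply, map_sum]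
      have h3 : (e (vv p j D.law) * Sc.of x : Sc D.P) = ∑ k ∈ Finset.range j,
          e (vv p k D.law) * Sc.of (y k) := (hmul j (Sc.of x)).symm.trans (hx.trans (hsum y))
      rw [h3]
      exact Finset.sum_congr rfl fun k _ => by rw [map_mul, RingEquiv.apply_symm_apply]
    rw [h2]
    exact sum_mem fun k hk => Ideal.mul_mem_right _ _ (vv_mem_Ih (Finset.mem_range.1 hk) _)
  obtain ⟨c, hc⟩ := exists_sum_of_mem_Ih p j D.law (hring_mem_Ih_of_mul HA hC _ h1)
  refine ⟨fun k => (e (c k)).hom, ?_⟩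
  rw [hsum]
  have h4 := congrArg e hc
  rw [RingEquiv.apply_symm_apply, map_sum] at h4
  refine Eq.trans (b := (Sc.of x : Sc D.P)) rfl (h4.trans (Finset.sum_congr rfl fun k _ => ?_))
  rw [map_mul]
  rfl

/-- `v_0, v_1, …` is regular on `π_{2w} P` -/
theorem regW_P_even (h : ℕ) {n : ℤ} (hn : Even n) : RegW 0 h (vP (D.vs p)) (Sph T n) := by
  obtain ⟨w, rfl⟩ := hn
  let eS : (stdEven T).S w ≅ Sph T (w + w) :=
    (stdEven T).sphIso (Iso.refl _) w ≪≫ eqToIso (by rw [two_mul])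
  refine RegW.iso_src eS ?_
  refine RegW.of_whiskerRight ((stdEven T).S (-w)) ?_
  refine RegW.iso_src ((stdEven T).unitIso w) ?_
  refine (regW_P_one HA hC h).conj (GD.perN _ (-w)) fun k => ?_
  have h1 := ModStr.IsLinear.smul (GD.perN_linear (ModStr.self D.R) (-w)) (D.vs p k)
  rw [self_tens, ModStr.tensorRight_smul] at h1
  rw [← cancel_mono (GD.perN _ (-w)).inv, Category.assoc, Category.assoc, Iso.hom_inv_id,
    Category.comp_id, h1, Iso.hom_inv_id_assoc]

/-- `v_0, v_1, …` is regular on `π_{2w+1} P` (`p` is bijective there) -/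
theorem regW_P_odd (h : ℕ) {n : ℤ} (hn : Odd n) : RegW 0 h (vP (D.vs p)) (Sph T n) := by
  have h0 : vP (D.vs p) 0 = (p : ℤ) • 𝟙 D.P := vP_zero (D.invData p 1)
  refine ⟨fun k hk => absurd hk (Nat.not_lt_zero k), fun j _ hjh x y hx => ?_⟩
  rcases Nat.eq_zero_or_pos j with rfl | hj
  · refine ⟨fun _ => 0, ?_⟩
    rw [Finset.sum_range_zero] at hx ⊢
    apply P_torsionFree_odd HA hC hn
    rw [h0, Preadditive.comp_zsmul, Category.comp_id] at hx
    exact hx
  · obtain ⟨z, hz⟩ := P_divisible_odd HA hC hn x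
    refine ⟨fun k => if k = 0 then z else 0, ?_⟩
    rw [Finset.sum_eq_single_of_mem 0 (Finset.mem_range.2 hj)]
    · dsimp only
      rw [if_pos rfl, h0, Preadditive.comp_zsmul, Category.comp_id, hz]
    · intro k _ hk
      dsimp only
      rw [if_neg hk, zero_comp]

/-- **(C4), all spheres.** `v_0 = p, v_1, …, v_{h-1}` is regular on the homotopy of `P`. -/
theorem goodReg_P (h : ℕ) (A : T) (hA : IsSphere A) :
    GoodReg 0 h (fun k => pc A (vP (D.vs p) k)) := by
  have hR : RegW 0 h (vP (D.vs p)) A := by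
    obtain ⟨n, ⟨e⟩⟩ := hA
    refine RegW.iso_src e.symm ?_
    rcases Int.even_or_odd n with hn | hn
    · exact regW_P_even HA hC h hn
    · exact regW_P_odd HA hC h hn
  refine ⟨fun j k x => ?_, fun j hj => absurd hj (Nat.not_lt_zero j), fun k hk hkh x hx => ?_⟩
  · change (x ≫ vP (D.vs p) k) ≫ vP (D.vs p) j = (x ≫ vP (D.vs p) j) ≫ vP (D.vs p) k
    rw [Category.assoc, Category.assoc, ModStr.smul_comm]
  · obtain ⟨y, hy⟩ := hx
    exact hR.2 k hk hkh x y hy


end Vale.Agent.P241.KP
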