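import Vale.Agent.P241.H882.KB

/-!
# P241, block KP2b: `K ⊗ P` for `P = MU ⊗ PS` and an associative monoid `K` over `MU`

Port of `P251/Z/KEps.lean` and `P251/Z/KMU.lean`: `K` is a monoid, not necessarily commutative,
whose homotopy ring is commutative.
-/

open CategoryTheory MonoidalCategory Limits Pretriangulated MonObj

set_option linter.unusedSectionVars false

universe v u

namespace Vale.Agent.P241.KP

open Vale.Agent.P251 Vale.Agent.P251.Z Vale.Agent.P251.I
open Vale.Agent.P251.T Vale.Agent.P251.M Vale.Agent.P251.M.EvenSpheres Vale.Agent.P251.S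
  Vale.Agent.P251.F Vale.Agent.P093.N0

attribute [local instance] HComm.commRing

variable {T : Type u} [Category.{v} T] [Preadditive T] [HasZeroObject T]
    [HasShift T ℤ] [∀ n : ℤ, (shiftFunctor T n).Additive] [Pretriangulated T] [IsTriangulated T]
    [MonoidalCategory T] [SymmetricCategory T] [TensorTriangulated T] [MonoidalClosed T]
    [HasCoproducts.{0} T] [HasProducts.{0} T] [StableCat T]

section sharp

variable {E : EvenSpheres T}

theorem sharpTot_mul {R : T} [MonObj R] (x y : HRing E R) :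
    scMul (R := R ⊗ E.PS) (sharpTot E R x) (sharpTot E R y) = sharpTot E R (x * y) := by
  induction x using DirectSum.induction_on with
  | zero => rw [map_zero, zero_scMul, zero_mul, map_zero]
  | add x x' hx hx' => rw [map_add, add_scMul, hx, hx', add_mul, map_add]
  | of m a =>
    induction y using DirectSum.induction_on with
    | zero => rw [map_zero, scMul_zero, mul_zero, map_zero]
    | add y y' hy hy' => rw [map_add, scMul_add, hy, hy', mul_add, map_add]
    | of n b =>
      have h : (DirectSum.of (E.Gr R) m a : HRing E R) * DirectSum.of (E.Gr R) n b =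
        HRing.of E R (m + n) (gmul rfl a b) := of_mul_of rfl a b
      rw [h, sharpTot_of, sharpTot_of, sharp_mul rfl]
      exact (sharpTot_of _ _).symm

theorem sharpTot_map {R R' : T} [MonObj R] [MonObj R'] (f : R ⟶ R') [IsMonHom f]
    (x : HRing E R) : sharpTot E R' (HRing.map f x) = sharpTot E R x ≫ f ▷ E.PS := by
  induction x using DirectSum.induction_on with
  | zero => rw [map_zero, map_zero, map_zero, zero_comp]
  | add x y hx hy => rw [map_add, map_add, hx, hy, map_add, Preadditive.add_comp]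
  | of m a =>
    have h : HRing.map f (DirectSum.of (E.Gr R) m a) = HRing.of E R' m (a ≫ f) :=
      HRing.map_of f m a
    rw [h, sharpTot_of, sharpTot_of]
    exact sharp_comp a f

theorem sharpTot_one' {R : T} [MonObj R] : sharpTot E R (1 : HRing E R) = η[R ⊗ E.PS] :=
  (sharpTot_of 0 _).trans sharp_one

variable (K R : T) [MonObj K] [MonObj R]

/-- `π_*(K ⊗ R) ≅ Hom(𝟙, K ⊗ (R ⊗ PS))` -/
noncomputable def thA : HRing E (K ⊗ R) →+ (𝟙_ T ⟶ K ⊗ (R ⊗ E.PS)) :=
  AddMonoidHom.mk' (fun x => sharpTot E (K ⊗ R) x ≫ (α_ K R E.PS).hom) fun x y => by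
    rw [map_add, Preadditive.add_comp]

theorem thA_apply (x : HRing E (K ⊗ R)) :
    thA K R x = sharpTot E (K ⊗ R) x ≫ (α_ K R E.PS).hom := rfl

theorem thA_bijective : Function.Bijective (thA (E := E) K R) := by
  have h1 : Function.Bijective (fun x : (𝟙_ T ⟶ (K ⊗ R) ⊗ E.PS) => x ≫ (α_ K R E.PS).hom) :=
    ⟨fun x y h => (cancel_mono _).1 h, fun y => ⟨y ≫ (α_ K R E.PS).inv, by simp⟩⟩
  exact h1.comp (sharpTot_bijective (K ⊗ R))

theorem thA_mul (x y : HRing E (K ⊗ R)) :
    thA K R (x * y) = scMul (R := K ⊗ (R ⊗ E.PS)) (thA K R x) (thA K R y) := by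
  rw [thA_apply, thA_apply, thA_apply, ← sharpTot_mul]
  exact scMul_comp (α_ K R E.PS).hom _ _

theorem thA_one : thA K R (1 : HRing E (K ⊗ R)) = η[K ⊗ (R ⊗ E.PS)] := by
  rw [thA_apply, sharpTot_one', IsMonHom.one_hom]

theorem thA_inr (x : HRing E R) :
    thA K R (HRing.map (inrM K R) x) = sharpTot E R x ≫ inrM K (R ⊗ E.PS) := by
  have h3 : inrM K R ▷ E.PS ≫ (α_ K R E.PS).hom = inrM K (R ⊗ E.PS) := by
    rw [← inrM_associator_inv, Category.assoc, Iso.inv_hom_id, Category.comp_id]
  rw [thA_apply, sharpTot_map, Category.assoc, h3]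

end sharp

section eps

variable {E : EvenSpheres T} {K R : T} [MonObj K] [MonObj R] [HComm E K] [HComm E (K ⊗ R)]

/-- `K_*[b_0, b_1, …] ⟶ π_*(K ⊗ R)` -/
noncomputable def epsA (β : ℕ → HRing E (K ⊗ R)) :
    MvPolynomial ℕ (HRing E K) →+* HRing E (K ⊗ R) :=
  MvPolynomial.eval₂Hom (HRing.map (inlM K R)) β

theorem epsA_monomial (β : ℕ → HRing E (K ⊗ R)) (a : ℕ →₀ ℕ) (c : HRing E K) :
    epsA β (MvPolynomial.monomial a c) =
      HRing.map (inlM K R) c * a.prod fun i m => β i ^ m :=
  MvPolynomial.eval₂_monomial _ _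

theorem epsA_C (β : ℕ → HRing E (K ⊗ R)) (c : HRing E K) :
    epsA β (MvPolynomial.C c) = HRing.map (inlM K R) c := MvPolynomial.eval₂_C _ _ _

theorem epsA_X (β : ℕ → HRing E (K ⊗ R)) (i : ℕ) :
    epsA β (MvPolynomial.X i) = β i := MvPolynomial.eval₂_X _ _ _

/-- **`π_*(K ⊗ R) = K_*[b_0, b_1, …]`.** -/
theorem epsA_bijective (hS : ∀ n, IsSphere (E.S n)) (b : GBasis E (inlM K R) (ℕ →₀ ℕ))
    (β : ℕ → HRing E (K ⊗ R))
    (hb : ∀ a, HRing.of E (K ⊗ R) (b.k a) (b.w a) = a.prod fun i m => β i ^ m) :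
    Function.Bijective (epsA β) := by
  classical
  have h2 := bij_expR b hS
  have hz : ((0 : (ℕ →₀ ℕ) →₀ HRing E K).sum fun a m => HRing.map (inlM K R) m *
      HRing.of E (K ⊗ R) (b.k a) (b.w a)) = 0 := Finsupp.sum_zero_index
  constructor
  · rw [injective_iff_map_eq_zero]
    intro P hP
    have h3 : ((Finsupp.onFinset P.support (fun a => P.coeff a) (fun a ha =>
        MvPolynomial.mem_support_iff.2 ha)).sum fun a m => HRing.map (inlM K R) m *
          HRing.of E (K ⊗ R) (b.k a) (b.w a)) = 0 := by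
      rw [Finsupp.onFinset_sum _ (fun a => by rw [map_zero, zero_mul]), ← hP]
      conv_rhs => rw [P.as_sum]
      rw [map_sum]
      refine Finset.sum_congr rfl fun a _ => ?_
      rw [epsA_monomial, hb]
    have h4 := h2.1 (h3.trans hz.symm)
    refine MvPolynomial.ext _ _ fun a => ?_
    have h5 := DFunLike.congr_fun h4 a
    rw [Finsupp.zero_apply] at h5
    exact h5
  · intro y
    obtain ⟨x, hx⟩ := h2.2 y
    refine ⟨x.sum fun a c => MvPolynomial.monomial a c, ?_⟩
    rw [Finsupp.sum, map_sum, ← hx]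
    dsimp only
    rw [Finsupp.sum]
    refine Finset.sum_congr rfl fun a _ => ?_
    rw [epsA_monomial, hb]

end eps

section MU

variable (D : MUData T) {K : T} [MonObj K] (k : D.R ⟶ K) [IsMonHom k]

/-- the generators `b_i` of `K_* MU` -/
noncomputable def bA (i : ℕ) : HRing (stdEven T) (K ⊗ D.R) :=
  HRing.map (E := stdEven T) (D.toKR k) (D.ev 1 (MvPolynomial.X (0, i)))

/-- multiplication by `v_i` on the second factor of `K ⊗ P` -/
theorem whiskerLeft_vP_A (p i : ℕ) : K ◁ vP (D.vs p) i = (ModStr.self (K ⊗ D.P)).smul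
    (thA K D.R (HRing.map (E := stdEven T) (inrM K D.R) (vv p i D.law))) := by
  have h1 : sharpTot (stdEven T) D.R (vv p i D.law) = D.vs p i := by
    rw [D.vel_spec p i]
    exact sharpTot_of _ _
  rw [thA_inr, h1]
  exact whiskerLeft_smul _

variable [HComm (stdEven T) K] [HComm (stdEven T) (K ⊗ D.R)]

theorem class_bA (a : ℕ →₀ ℕ) :
    HRing.map (E := stdEven T) (D.toKR k) (D.ev 1 (MvPolynomial.monomial (Cob.last 0 a) 1)) =
      a.prod fun i m => bA D k i ^ m := by
  have h : (MvPolynomial.monomial (Cob.last 0 a) 1 : Cob Laz 1) =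
      a.prod fun i m => MvPolynomial.X (0, i) ^ m := by
    rw [MvPolynomial.monomial_eq, MvPolynomial.C_1, _root_.one_mul]
    unfold Cob.last
    rw [Finsupp.prod_mapDomain_index_inj (Cob.last_inj)]
    rfl
  rw [h]
  unfold bA
  rw [map_finsuppProd, map_finsuppProd]
  simp only [map_pow]

/-- the law of `K` -/
noncomputable abbrev lawA : Law (HRing (stdEven T) K) := D.law.map (HRing.map (E := stdEven T) k)

theorem map_strictIso_A : InvSeries.map (HRing.map (E := stdEven T) (D.toKR k)) D.strictIso =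
    strictMk (bA D k) := by
  unfold MUData.strictIso
  have h : (Cob.univ Laz 1).g 1 = strictMk fun m => MvPolynomial.X (0, m) :=
    Cob.univ_g_succ (0 : Fin 1)
  rw [h, map_strictMk, map_strictMk]
  rfl

/-- the law of `MU` over `K_* MU` -/
theorem law_inr_A : D.law.map (HRing.map (E := stdEven T) (inrM K D.R)) =
    (bL (lawA D k)).map (epsA (bA D k)) := by
  have h1 := congrArg (Law.map (HRing.map (E := stdEven T) (D.toKR k))) D.strictIso_smul
  rw [InvSeries.map_smul, Law.map_map, Law.map_map, ← HRing.map_comp, ← HRing.map_comp,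
    HRing_map_congr (D.v_zero_toKR k), HRing_map_congr (D.v_one_toKR k), map_strictIso_A] at h1
  rw [← h1]
  unfold bL
  rw [InvSeries.map_smul, Law.map_map, map_strictMk]
  have h2 : (epsA (bA D k)).comp MvPolynomial.C = HRing.map (E := stdEven T) (inlM K D.R) := by
    exact RingHom.ext fun c => epsA_C _ c
  rw [h2]
  unfold lawA
  rw [Law.map_map, ← HRing.map_comp]
  congr 2
  funext i
  exact (epsA_X _ i).symm

variable {D} in
theorem epsA_bA_bijective {F : SpaceFunctor T} {e : F.S.obj CCF ≅ (stdEven T).L}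
    (h : MUUniv e D) : Function.Bijective (epsA (bA D k)) := by
  obtain ⟨b, -, hb⟩ := D.exists_basis_of k h
  exact epsA_bijective isSphere_std b (bA D k) fun a => by rw [hb, class_bA]

theorem inr_vv_A (p i : ℕ) : HRing.map (E := stdEven T) (inrM K D.R) (vv p i D.law) =
    epsA (bA D k) (vv p i (bL (lawA D k))) := by
  rw [← vv_map, law_inr_A D k, vv_map]

theorem whiskerLeft_vP_zero_A {p h : ℕ} [Fact p.Prime] (h0 : ∀ i < h, vv p i (lawA D k) = 0)
    {i : ℕ} (hi : i < h) : K ◁ vP (D.vs p) i = 0 := by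
  rw [whiskerLeft_vP_A D, inr_vv_A D k, vv_bL_lt h0 hi, map_zero, map_zero]
  exact ModStr.smul_zero _

theorem isIso_whiskerLeft_vP_A {p h : ℕ} [Fact p.Prime] (h0 : ∀ i < h, vv p i (lawA D k) = 0)
    (h1 : IsUnit (vv p h (lawA D k))) : IsIso (K ◁ vP (D.vs p) h) := by
  rw [whiskerLeft_vP_A D, inr_vv_A D k, vv_bL_self h0]
  obtain ⟨U, hU⟩ := (h1.map (MvPolynomial.C (σ := ℕ))).map (epsA (bA D k))
  rw [← hU]
  refine ⟨(ModStr.self (K ⊗ D.P)).smul (thA K D.R (↑U⁻¹ : HRing (stdEven T) (K ⊗ D.R))), ?_, ?_⟩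
  · rw [← ModStr.smul_mul, ← thA_mul, Units.inv_mul, thA_one]
    exact ModStr.smul_one _
  · rw [← ModStr.smul_mul, ← thA_mul, Units.mul_inv, thA_one]
    exact ModStr.smul_one _

/-- the maps `P ⟶ K ⊗ P`, multiplication by the monomials `b^e` -/
noncomputable def phiA {h p : ℕ} (e : Small (kdeg p h)) : D.P ⟶ K ⊗ D.P :=
  mulEl (thA K D.R (epsA (bA D k) (MvPolynomial.monomial (e : ℕ →₀ ℕ) 1)))

end MU

end Vale.Agent.P241.KP
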