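import Vale.Agent.P241.H882.KMapA

/-!
# P241, block KP2b: the reverse comparison for an associative monoid `K` over `MU`, every prime

`K ⊗ W = 0` implies `K_h ⊗ W = 0`.
-/

open CategoryTheory MonoidalCategory Limits Pretriangulated MonObj

set_option linter.unusedSectionVars false
set_option linter.style.haveILetI false

universe v u

namespace Vale.Agent.P241.KP

open Vale.Agent.P251 Vale.Agent.P251.Z Vale.Agent.P251.I
open Vale.Agent.P251.T Vale.Agent.P251.M Vale.Agent.P251.M.EvenSpheres Vale.Agent.P251.S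
  Vale.Agent.P251.F Vale.Agent.P093.N0

attribute [local instance] HComm.commRing

variable {T : Type u} [Category.{v} T] [Preadditive T] [HasZeroObject T]
    [HasShift T ℤ] [∀ n : ℤ, (shiftFunctor T n).Additive] [Pretriangulated T] [IsTriangulated T]
    [MonoidalCategory T] [SymmetricCategory T] [TensorTriangulated T] [MonoidalClosed T]
    [HasCoproducts.{0} T] [HasProducts.{0} T] [StableCat T]
    {D : MUData T} {F : SpaceFunctor T} {e : F.S.obj CCF ≅ (stdEven T).L} (hU : MUUniv e D)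
    (HA : MUAll D)
    {C : T} {i : 𝟙_ T ⟶ C} {δ : C ⟶ (𝟙_ T)⟦(1 : ℤ)⟧} {p : ℕ} [Fact p.Prime]
    (hC : Triangle.mk ((p : ℤ) • 𝟙 (𝟙_ T)) i δ ∈ distTriang T)
    {K : T} [MonObj K] (k : D.R ⟶ K) [IsMonHom k]

section comm

include hU in
/-- **`π_{2*}(K ⊗ MU)` is commutative.** -/
theorem hcomm_tensor {d : ℤ} {v : (stdEven T).S d ⟶ D.R} {w : (stdEven T).S (-d) ⟶ K}
    (L : Lau (stdEven T) p d (v ≫ k) w) : HComm (stdEven T) (K ⊗ D.R) := by
  classical
  obtain ⟨b, -, hb⟩ := D.exists_basis_of k hU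
  let Φ := HRing.map (E := stdEven T) (D.toKR k)
  let τ : HRing (stdEven T) (Am D.R 2) :=
    HRing.of (stdEven T) (Am D.R 2) d (v ≫ Am.v D.R (0 : Fin 2))
  have hτ : Φ τ = HRing.map (inlM K D.R) (HRing.of (stdEven T) K d (v ≫ k)) := by
    refine (HRing.map_of _ _ _).trans (Eq.trans ?_ (HRing.map_of _ _ _).symm)
    rw [Category.assoc, D.v_zero_toKR k, Category.assoc]
  have hu : IsUnit (Φ τ) := by
    rw [hτ]
    refine IsUnit.map _ ?_
    exact ⟨⟨_, _, L.vw, L.wv⟩, rfl⟩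
  refine ⟨mul_comm_of_loc Φ τ hu ?_⟩
  have hc : ∀ c, Commute (Φ τ) (Φ c) := fun c => (Commute.all τ c).map Φ
  have hadd : ∀ x y : HRing (stdEven T) (K ⊗ D.R), (∃ (N : ℕ) (c : _), x * Φ τ ^ N = Φ c) →
      (∃ (N : ℕ) (c : _), y * Φ τ ^ N = Φ c) → ∃ (N : ℕ) (c : _), (x + y) * Φ τ ^ N = Φ c := by
    rintro x y ⟨N, a, ha⟩ ⟨M, c, hc'⟩
    refine ⟨N + M, a * τ ^ M + c * τ ^ N, ?_⟩
    rw [add_mul, map_add, map_mul, map_mul, map_pow, map_pow, ← ha, ← hc', _root_.mul_assoc,
      _root_.mul_assoc, ← pow_add, ← pow_add, add_comm M N]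
  intro x
  obtain ⟨x, rfl⟩ := (bij_expR b isSphere_std).2 x
  dsimp only
  rw [Finsupp.sum]
  induction x.support using Finset.induction_on with
  | empty => exact ⟨0, 0, by simp⟩
  | insert a s ha ih =>
    rw [Finset.sum_insert ha]
    refine hadd _ _ ?_ ih
    rw [hb]
    generalize x a = m
    induction m using DirectSum.induction_on with
    | zero => exact ⟨0, 0, by simp⟩
    | add y z hy hz =>
      rw [map_add, add_mul]
      exact hadd _ _ hy hz
    | of l f =>
      obtain ⟨c, N, M, h⟩ := L.exists_vw l f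
      set e' := D.ev 1 (MvPolynomial.monomial (Cob.last 0 a) 1)
      refine ⟨N, (c : HRing (stdEven T) (Am D.R 2)) * τ ^ M * e', ?_⟩
      have h1 := congrArg (HRing.map (E := stdEven T) (inlM K D.R)) h
      rw [map_mul, map_mul, map_pow, map_pow, ← hτ, map_intCast] at h1
      rw [map_mul Φ, map_mul Φ, map_intCast, map_pow, ← h1, _root_.mul_assoc, _root_.mul_assoc]
      congr 1
      exact ((hc e').symm.pow_right N).eq

end comm

section good

variable [HComm (stdEven T) K] [HComm (stdEven T) (K ⊗ D.R)]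
    [Algebra (Polynomial (ZMod p)) (HRing (stdEven T) K)]
    [IsLocalization.Away (Polynomial.X : Polynomial (ZMod p)) (HRing (stdEven T) K)]
    {h : ℕ} (hh : h ≠ 0) (h0 : ∀ i < h, vv p i (lawA D k) = 0)
    (hv : vv p h (lawA D k) =
      algebraMap (Polynomial (ZMod p)) (HRing (stdEven T) K) Polynomial.X)

include hU HA hC hh h0 hv in
/-- the good map at the unit -/
theorem goodMap_one_A : GoodMap h (fun j => pc (𝟙_ T) (vP (D.vs p) j))
    (pc (𝟙_ T) (K ◁ vP (D.vs p) h))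
    (fun e : Small (kdeg p h) => pc (𝟙_ T) (phiA D k e)) := by
  have H := goodMap_ring (p := p) hh (lawA D k) h0 hv D.law (epsA (bA D k))
    (epsA_bA_bijective k hU) (HRing.map (E := stdEven T) (inrM K D.R)) (law_inr_A D k)
    (exists_L0_add HA hC)
  refine H.congr (fun j l x => by simp only [mulA_apply]; ring)
    (sharpTot (stdEven T) D.R) (sharpTot_bijective D.R)
    (thA (E := stdEven T) K D.R) (thA_bijective K D.R)
    (fun j x => ?_) (fun x => ?_) (fun s x => ?_)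
  · have h1 : sharpEquiv (stdEven T) D.R (vv p j D.law * x) =
        Sc.of (D.vs p j) * sharpEquiv (stdEven T) D.R x := by
      rw [map_mul, sharpHom_vv]
    exact h1.trans (scMul_eq_smul (R := D.P) (D.vs p j) _)
  · have h1 : thA (E := stdEven T) K D.R
        (HRing.map (E := stdEven T) (inrM K D.R) (vv p h D.law) * x) =
        scMul (R := K ⊗ D.P) (thA K D.R (HRing.map (E := stdEven T) (inrM K D.R)
          (vv p h D.law))) (thA K D.R x) := thA_mul K D.R _ _
    refine Eq.trans h1 ?_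
    rw [scMul_eq_smul, ← whiskerLeft_vP_A D]
    rfl
  · have h1 : thA (E := stdEven T) K D.R
        (epsA (bA D k) (MvPolynomial.monomial (s : ℕ →₀ ℕ) 1) *
          HRing.map (E := stdEven T) (inrM K D.R) x) =
        scMul (R := K ⊗ D.P) (thA K D.R (epsA (bA D k) (MvPolynomial.monomial (s : ℕ →₀ ℕ) 1)))
          (sharpTot (stdEven T) D.R x ≫ inrM K D.P) := by
      rw [thA_mul, thA_inr]
    exact (comp_mulEl _ _).trans h1.symm

end good

include HA hC in
/-- the good map at all spheres, from the unit -/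
theorem goodMap_of_one_A {h : ℕ} (hh : h ≠ 0)
    (hodd : ∀ (l : ℤ) (f : (𝟙_ T)⟦2 * l + 1⟧ ⟶ K), f = 0)
    {J : Type} (b : GBasis (stdEven T) (inlM K D.R) J) {I : Type}
    {φ : I → (D.P ⟶ K ⊗ D.P)} (hφ : ∀ e, Lin (φ e))
    (H : GoodMap h (fun j => pc (𝟙_ T) (vP (D.vs p) j)) (pc (𝟙_ T) (K ◁ vP (D.vs p) h))
      (fun e => pc (𝟙_ T) (φ e))) (A : T) (hA : IsSphere A) :
    GoodMap h (fun j => pc A (vP (D.vs p) j)) (pc A (K ◁ vP (D.vs p) h))
      (fun e => pc A (φ e)) := by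
  rcases sphere_cases (E := stdEven T) (Iso.refl _) hA with ⟨m, ⟨a⟩⟩ | ⟨l, ⟨a⟩⟩
  · obtain ⟨y, hy', hy⟩ := exists_twist (stdEven T) D.R m a
    exact H.quot (twP y) hy.2 (fun k x => twP_vP y (D.vs p) k x) (twY K y) (hy' K)
      (fun g => twY_v K y (D.vs p h) g) (fun e x => twY_lin y (hφ e) x)
  · have h1 : ∀ x : A ⟶ K ⊗ D.P, x = 0 :=
      odd_of_iso a (odd_tensor (E := stdEven T) (Iso.refl _) b hodd)
    have h0 : vP (D.vs p) 0 = (p : ℤ) • 𝟙 D.P := vP_zero (D.invData p 1)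
    refine ⟨fun e x => ?_, fun y => ⟨0, 0, ?_⟩, fun x _ e => ⟨0, ?_⟩⟩
    · rw [h1 (pc A (φ e) _), h1 (pc A (K ◁ vP (D.vs p) h) _)]
    · rw [h1 y]
      simp
    · obtain ⟨y, hy⟩ := P_divisible_odd HA hC (n := 2 * l + 1) ⟨l, rfl⟩ (a.inv ≫ x e)
      have h2 : (x e : A ⟶ D.P) = pc A (vP (D.vs p) 0) (a.hom ≫ y) := by
        rw [pc_apply, h0, Preadditive.comp_zsmul, Category.comp_id, ← Preadditive.comp_zsmul, hy,
          Iso.hom_inv_id_assoc]
      change (x e : A ⟶ D.P) ∈ _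
      rw [h2]
      exact apply_mem_VI (fun j => pc A (vP (D.vs p) j)) (Nat.pos_of_ne_zero hh) _

include hU HA hC in
/-- **The reverse comparison** for an associative monoid `K` over `MU`, for every prime. -/
theorem kos_acyclic {h : ℕ} (hh : h ≠ 0)
    (hodd : ∀ (l : ℤ) (f : (𝟙_ T)⟦2 * l + 1⟧ ⟶ K), f = 0)
    (hsparse : ∀ (m : ℤ), ¬ ((p : ℤ) ^ h - 1 ∣ m) → ∀ f : (stdEven T).S m ⟶ K, f = 0)
    (hchar : (p : ℤ) • η[K] = 0) (hne : η[K] ≠ 0)
    (hgen : ∀ f : 𝟙_ T ⟶ K, ∃ a : ℤ, f = a • η[K])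
    (hlt : ∀ i < h, HRing.map (E := stdEven T) k (vv p i D.law) = 0)
    (hunit : IsUnit (HRing.map (E := stdEven T) k (vv p h D.law)))
    (Z : KosData D.P (p : ℤ) h (D.vs p)) {W : T} (hW : Acyclic K W) : Acyclic Z.K W := by
  have hp : 1 < p := (Fact.out : p.Prime).one_lt
  have hd : ((p : ℤ) ^ h - 1) ≠ 0 := by
    have h1 : 1 < p ^ h := Nat.one_lt_pow hh hp
    have h2 : (1 : ℤ) < (p : ℤ) ^ h := by exact_mod_cast h1
    omega
  have hvu0 : HRing.map (E := stdEven T) k (vv p h D.law) =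
      HRing.of (stdEven T) K ((p : ℤ) ^ h - 1) (D.vel p h ≫ k) := by
    rw [D.vel_spec p h]
    exact HRing.map_of _ _ _
  rw [hvu0] at hunit
  obtain ⟨w, hw1, hw2⟩ := exists_hinv (D.vel p h ≫ k) hunit
  have L : Lau (stdEven T) p ((p : ℤ) ^ h - 1) (D.vel p h ≫ k) w :=
    ⟨hw1, hw2, fun m hm f => hsparse m hm f, hchar, hne, hgen⟩
  haveI : HComm (stdEven T) K := L.hcomm
  haveI : HComm (stdEven T) (K ⊗ D.R) := hcomm_tensor hU k L
  letI := L.algebra
  haveI := L.isLocalization hd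
  have h0 : ∀ i < h, vv p i (lawA D k) = 0 := fun i hi => by
    unfold lawA
    rw [vv_map]
    exact hlt i hi
  have hv : vv p h (lawA D k) =
      algebraMap (Polynomial (ZMod p)) (HRing (stdEven T) K) Polynomial.X := by
    rw [L.algebraMap_X]
    unfold lawA
    rw [vv_map]
    exact hvu0
  obtain ⟨b, -, -⟩ := D.exists_basis_of k hU
  obtain ⟨b', -, -⟩ := hU.basis
  obtain ⟨J, f, hf, hf'⟩ := exists_free_of_basis (E := stdEven T) (GBasis.ofAm b')
  have hI : Nonempty (Small (kdeg p h)) :=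
    ⟨⟨0, fun j => by simpa using kdeg_pos (Fact.out : p.Prime).ne_zero h j⟩⟩
  have hvu : IsUnit (vv p h (lawA D k)) := by
    rw [hv]
    exact IsLocalization.Away.algebraMap_isUnit _
  have hR : RevData D.P (p : ℤ) h (D.vs p) K
      (fun e : Small (kdeg p h) => phiA D k e) f :=
    { inv := D.invData p h
      char := by
        have h1 : 𝟙 K = (λ_ K).inv ≫ (η[K] ▷ K) ≫ μ[K] := by
          rw [MonObj.one_mul, Iso.inv_hom_id]
        rw [h1, ← Preadditive.comp_zsmul, ← Preadditive.zsmul_comp, ← whiskerRight_zsmul', hchar]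
        simp
      zero := fun j _ hj => whiskerLeft_vP_zero_A D k h0 hj
      unit := isIso_whiskerLeft_vP_A D k h0 hvu
      linφ := fun e => lin_mulEl _
      linf := hf
      free := hf'
      reg := fun A hA => goodReg_P HA hC h A hA
      map := goodMap_of_one_A HA hC hh hodd b (fun e => lin_mulEl _)
        (goodMap_one_A hU HA hC k hh h0 hv) }
  exact hR.acyclic Z hW

end Vale.Agent.P241.KP
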