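import Vale.Agent.P241.H882.KMapB
import Vale.Agent.P241.H795.KA

/-!
# P241, block KP2b: the reverse comparison for `KA`

* `KA.kos_acyclic` : `K` Morava of height `n ≠ 0` (associative, under `MU`, any prime) and
  `K ⊗ W = 0` imply `K_n ⊗ W = 0`, `K_n` the Koszul object of `D.P` on `v_0, …, v_n`.
* `goodReg_P'` : the same for `goodReg_P`, without the cofibre of `p` as an argument.
-/

open CategoryTheory MonoidalCategory Limits Pretriangulated MonObj

universe v u

namespace Vale.Agent.P241.KP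

open Vale.Agent.P251 Vale.Agent.P251.Z Vale.Agent.P251.I
open Vale.Agent.P251.T Vale.Agent.P251.M Vale.Agent.P251.M.EvenSpheres Vale.Agent.P251.S
  Vale.Agent.P251.F Vale.Agent.P093.N0 Vale.Agent.P241.H795

variable {T : Type u} [Category.{v} T] [Preadditive T] [HasZeroObject T]
    [HasShift T ℤ] [∀ n : ℤ, (shiftFunctor T n).Additive] [Pretriangulated T] [IsTriangulated T]
    [MonoidalCategory T] [SymmetricCategory T] [TensorTriangulated T] [MonoidalClosed T]
    [HasCoproducts.{0} T] [HasProducts.{0} T] [StableCat T]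
    {D : MUData T} {F : SpaceFunctor T} {e : F.S.obj CCF ≅ (stdEven T).L}

/-- **`K`-acyclic objects are `K_n`-acyclic**, for `K` a Morava `K`-theory of height `n ≠ 0` at any
prime `p`; `K` is only assumed to be an associative monoid under `MU`. -/
theorem kos_acyclic_KA (hU : MUUniv e D) (HA : MUAll D) {p : ℕ} [Fact p.Prime] {n : ℕ}
    (hn : n ≠ 0) {K : T} [MonObj K] (A : KA D p n K)
    (Z : KosData D.P (p : ℤ) n (D.vs p)) {W : T} (hW : Acyclic K W) : Acyclic Z.K W := by
  obtain ⟨C, i, δ, hC⟩ := distinguished_cocone_triangle ((p : ℤ) • 𝟙 (𝟙_ T))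
  have := A.hom
  exact kos_acyclic hU HA hC A.u hn A.odd A.sparse A.char A.ne A.gen A.vv_lt A.vv_unit Z hW

/-- the same in terms of `IsZero`, `K` on the right -/
theorem kos_isZero_KA (hU : MUUniv e D) (HA : MUAll D) {p : ℕ} [Fact p.Prime] {n : ℕ}
    (hn : n ≠ 0) {K : T} [MonObj K] (A : KA D p n K)
    (Z : KosData D.P (p : ℤ) n (D.vs p)) {W : T} (hW : IsZero (K ⊗ W)) : IsZero (Z.K ⊗ W) :=
  kos_acyclic_KA hU HA hn A Z hW

end Vale.Agent.P241.KP
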