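import Vale.Agent.P241.H882.HComm

/-!
# P241, block KP2b: `π_*(K ⊗ MU) = K_*[b_1, b_2, …]` for an associative `K` over `MU`

* `bij_expR` : for a graded basis of the (associative) monoid `B` over `φ : F ⟶ B`, the map
  `(x_a) ↦ ∑ φ(x_a) w_a` is bijective;
* `hcomm_of_loc` : commutativity of a ring which is a localization of a quotient of a commutative
  ring.
-/

open CategoryTheory MonoidalCategory Limits MonObj Pretriangulated

set_option linter.unusedSectionVars false

universe v u

namespace Vale.Agent.P241.KP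

open Vale.Agent.P251 Vale.Agent.P251.Z
open Vale.Agent.P251.T Vale.Agent.P251.M Vale.Agent.P251.M.EvenSpheres Vale.Agent.P251.S
  Vale.Agent.P251.F Vale.Agent.P093.N0

attribute [local instance] HComm.commRing

section ext

variable {T : Type u} [Category.{v} T] [Preadditive T] [HasZeroObject T]
    [HasShift T ℤ] [∀ n : ℤ, (shiftFunctor T n).Additive] [Pretriangulated T] [IsTriangulated T]
    [MonoidalCategory T] [SymmetricCategory T] [TensorTriangulated T] [MonoidalClosed T]
    [HasCoproducts.{0} T] [HasProducts.{0} T] [StableCat T] {E : EvenSpheres T}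

/-- The map `S^{2n} ⟶ F ⊗ S^{2k}` given by `x : S^{2m} ⟶ F`, `m + k = n`. -/
noncomputable def rtw {F : T} {k m n : ℤ} (h : m + k = n) (x : E.S m ⟶ F) :
    E.S n ⟶ F ⊗ E.S k := E.ext h x (𝟙 (E.S k))

lemma rtw_bijective {F : T} {k m n : ℤ} (h : m + k = n) :
    Function.Bijective (rtw (E := E) (F := F) h) := by
  have key : ∀ x : E.S m ⟶ F, rtw h x = (E.mu m k n h).inv ≫ (x ▷ E.S k) := by
    intro x
    unfold rtw EvenSpheres.ext
    rw [tensorHom_id]
  constructor
  · intro x y hxy
    rw [key, key, cancel_epi] at hxy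
    exact whiskerRight_inj _ hxy
  · intro g
    obtain ⟨x, hx⟩ := whiskerRight_surj (E.S k) ((E.mu m k n h).hom ≫ g)
    refine ⟨x, ?_⟩
    rw [key, hx, Iso.inv_hom_id_assoc]

lemma rtw_zero {F : T} {k m n : ℤ} (h : m + k = n) :
    rtw (E := E) h (0 : E.S m ⟶ F) = 0 := by
  unfold rtw
  rw [ext_zero_left]

lemma rtw_comp {B F : T} [MonObj B] {k m n : ℤ} (h : m + k = n)
    (φ : F ⟶ B) (w : E.S k ⟶ B) (x : E.S m ⟶ F) :
    rtw h x ≫ (φ ⊗ₘ w) ≫ μ[B] = gmul h (x ≫ φ) w := by
  unfold rtw gmul
  rw [← Category.assoc, ← EvenSpheres.ext_comp, Category.id_comp]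

variable {F B : T} [MonObj B] {φ : F ⟶ B} {J : Type} (b : GBasis E φ J)

/-- Existence of the expansion. -/
theorem exists_expR (n : ℤ) (hS : IsSphere (E.S n)) (f : E.S n ⟶ B) :
    ∃ (t : Finset J) (x : ∀ j, E.S (n - b.k j) ⟶ F),
      f = ∑ j ∈ t, gmul (sub_add_cancel n (b.k j)) (x j ≫ φ) (b.w j) := by
  have := b.isIso
  obtain ⟨t, g, hg⟩ := compact_sum _ hS
    (f ≫ inv (Sigma.desc fun j => (φ ⊗ₘ b.w j) ≫ μ[B]))
  choose x hx using fun j => (rtw_bijective (E := E) (F := F) (sub_add_cancel n (b.k j))).2 (g j)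
  refine ⟨t, x, ?_⟩
  have h1 : f = (f ≫ inv (Sigma.desc fun j => (φ ⊗ₘ b.w j) ≫ μ[B])) ≫
      (Sigma.desc fun j => (φ ⊗ₘ b.w j) ≫ μ[B]) := by
    rw [Category.assoc, IsIso.inv_hom_id, Category.comp_id]
  rw [h1, hg, Preadditive.sum_comp]
  refine Finset.sum_congr rfl fun j _ => ?_
  rw [Category.assoc, Sigma.ι_desc, ← hx, rtw_comp]

/-- Uniqueness of the expansion. -/
theorem expR_unique (n : ℤ) (t : Finset J) (x : ∀ j, E.S (n - b.k j) ⟶ F)
    (h : ∑ j ∈ t, gmul (sub_add_cancel n (b.k j)) (x j ≫ φ) (b.w j) = 0) :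
    ∀ j ∈ t, x j = 0 := by
  have := b.isIso
  intro j hj
  have h2 := sum_ι_eq_zero (fun j => F ⊗ E.S (b.k j)) t
    (fun j => rtw (sub_add_cancel n (b.k j)) (x j)) (by
      rw [← cancel_mono (Sigma.desc fun j => (φ ⊗ₘ b.w j) ≫ μ[B]), Preadditive.sum_comp,
        zero_comp, ← h]
      refine Finset.sum_congr rfl fun j _ => ?_
      rw [Category.assoc, Sigma.ι_desc, rtw_comp]) j hj
  exact (rtw_bijective (E := E) (F := F) (sub_add_cancel n (b.k j))).1
    (h2.trans (rtw_zero _).symm)

end ext

section bij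

variable {T : Type u} [Category.{v} T] [Preadditive T] [HasZeroObject T]
    [HasShift T ℤ] [∀ n : ℤ, (shiftFunctor T n).Additive] [Pretriangulated T] [IsTriangulated T]
    [MonoidalCategory T] [SymmetricCategory T] [TensorTriangulated T] [MonoidalClosed T]
    [HasCoproducts.{0} T] [HasProducts.{0} T] [StableCat T] {E : EvenSpheres T}
    {F B : T} [MonObj F] [MonObj B] {φ : F ⟶ B} [IsMonHom φ] {J : Type} (b : GBasis E φ J)

lemma cmp_map (x : HRing E F) (n : ℤ) :
    cmp E B n (HRing.map φ x) = HRing.of E B n (x n ≫ φ) := by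
  induction x using DirectSum.induction_on with
  | zero =>
    rw [map_zero, map_zero]
    change (0 : HRing E B) = HRing.of E B n ((0 : E.S n ⟶ F) ≫ φ)
    rw [zero_comp]
    exact (map_zero _).symm
  | add x y hx hy =>
    rw [map_add, map_add, hx, hy]
    change _ = HRing.of E B n ((x n + y n : E.S n ⟶ F) ≫ φ)
    rw [Preadditive.add_comp]
    exact (map_add (DirectSum.of (E.Gr B) n) _ _).symm
  | of m a =>
    have h1 : HRing.map φ (DirectSum.of (E.Gr F) m a) = HRing.of E B m (a ≫ φ) :=
      HRing.map_of φ m a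
    rw [h1]
    by_cases h : m = n
    · subst h
      rw [cmp_of_same, DirectSum.of_eq_same]
    · rw [cmp_of_ne _ _ h, DirectSum.of_eq_of_ne _ _ _ (Ne.symm h)]
      change (0 : HRing E B) = HRing.of E B n ((0 : E.S n ⟶ F) ≫ φ)
      rw [zero_comp]
      exact (map_zero _).symm

/-- **`π_* B` is free over `π_* F` on the right by the basis.** -/
theorem bij_expR (hS : ∀ n, IsSphere (E.S n)) :
    Function.Bijective fun x : J →₀ HRing E F =>
      x.sum fun a m => HRing.map φ m * HRing.of E B (b.k a) (b.w a) := by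
  classical
  constructor
  · have hinj : ∀ x : J →₀ HRing E F, (x.sum fun a m => HRing.map φ m *
        HRing.of E B (b.k a) (b.w a)) = 0 → x = 0 := by
      intro x hx
      ext1 a
      rw [Finsupp.zero_apply]
      by_cases ha : a ∈ x.support
      · refine DFinsupp.ext fun m => ?_
        have h1 := congrArg (cmp E B (m + b.k a)) hx
        rw [Finsupp.sum, map_sum, map_zero] at h1
        have h0 : HRing.of E B (m + b.k a) (∑ j ∈ x.support,
            gmul (sub_add_cancel (m + b.k a) (b.k j)) (x j (m + b.k a - b.k j) ≫ φ) (b.w j)) =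
              0 := by
          rw [← h1]
          refine (map_sum (DirectSum.of (E.Gr B) _) _ _).trans ?_
          refine Finset.sum_congr rfl fun j _ => ?_
          rw [cmp_mul_of _ _ _ (m + b.k a - b.k j) (sub_add_cancel _ _), cmp_map,
            of_mul_of (sub_add_cancel (m + b.k a) (b.k j))]
        have h00 := DirectSum.of_injective (β := E.Gr B) _ (h0.trans (map_zero _).symm)
        have h2 := expR_unique b (m + b.k a) x.support
          (fun j => x j (m + b.k a - b.k j)) h00 a ha
        rw [add_sub_cancel_right] at h2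
        exact h2
      · exact Finsupp.notMem_support_iff.1 ha
    intro x y hxy
    rw [← sub_eq_zero]
    apply hinj
    rw [Finsupp.sum_sub_index (by
      intro a m m'
      rw [map_sub, sub_mul])]
    rw [sub_eq_zero]
    exact hxy
  · have hadd : ∀ x y : J →₀ HRing E F, ((x + y).sum fun a m => HRing.map φ m *
        HRing.of E B (b.k a) (b.w a)) = (x.sum fun a m => HRing.map φ m *
        HRing.of E B (b.k a) (b.w a)) +
          y.sum fun a m => HRing.map φ m * HRing.of E B (b.k a) (b.w a) := fun x y =>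
      Finsupp.sum_add_index' (fun a => by rw [map_zero, zero_mul])
        (fun a m m' => by rw [map_add, add_mul])
    intro y
    induction y using DirectSum.induction_on with
    | zero => exact ⟨0, Finsupp.sum_zero_index⟩
    | of n f =>
      obtain ⟨t, x, hx⟩ := exists_expR b n (hS n) f
      refine ⟨Finsupp.onFinset t (fun j => if j ∈ t then HRing.of E F (n - b.k j) (x j) else 0) (by
        intro a ha
        by_contra h1
        exact ha (if_neg h1)), ?_⟩
      dsimp only
      rw [Finsupp.onFinset_sum _ (fun a => by rw [map_zero, zero_mul])]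
      refine Eq.trans ?_ (congrArg (DirectSum.of (E.Gr B) n) hx).symm
      refine Eq.trans ?_ (map_sum (DirectSum.of (E.Gr B) n) _ _).symm
      refine Finset.sum_congr rfl fun j hj => ?_
      rw [if_pos hj, HRing.map_of, of_mul_of (sub_add_cancel n (b.k j))]
    | add x y hx hy =>
      obtain ⟨x', hx'⟩ := hx
      obtain ⟨y', hy'⟩ := hy
      exact ⟨x' + y', by
        dsimp only at hx' hy' ⊢
        rw [hadd, hx', hy']⟩

end bij

section alg

/-- If every element of `S` becomes an element of the image of the commutative ring `C` after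
multiplication by a power of the image of `τ`, which is a unit, then `S` is commutative. -/
theorem mul_comm_of_loc {C S : Type*} [CommRing C] [Ring S] (Φ : C →+* S) (τ : C)
    (hτ : IsUnit (Φ τ)) (h : ∀ x : S, ∃ (N : ℕ) (c : C), x * Φ τ ^ N = Φ c) (x y : S) :
    x * y = y * x := by
  obtain ⟨U, hU⟩ := hτ
  have hc : ∀ c : C, Commute (U : S) (Φ c) := fun c => by
    rw [hU]
    exact (Commute.all τ c).map Φ
  have key : ∀ x : S, ∃ (N : ℕ) (c : C), x = Φ c * ↑(U⁻¹ ^ N) := by
    intro x
    obtain ⟨N, c, hx⟩ := h x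
    refine ⟨N, c, ?_⟩
    rw [← hx, ← hU, _root_.mul_assoc, ← Units.val_pow_eq_pow_val, ← Units.val_mul, inv_pow,
      mul_inv_cancel, Units.val_one, _root_.mul_one]
  obtain ⟨N, a, rfl⟩ := key x
  obtain ⟨M, b, rfl⟩ := key y
  have h1 : ∀ (c : C) (n : ℕ), Commute ((U⁻¹ ^ n : Sˣ) : S) (Φ c) := fun c n => by
    rw [Units.val_pow_eq_pow_val]
    exact ((hc c).units_inv_left).pow_left n
  have h2 : Commute (Φ a) (Φ b) := (Commute.all a b).map Φ
  have h3 : Commute ((U⁻¹ ^ N : Sˣ) : S) ((U⁻¹ ^ M : Sˣ) : S) := by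
    rw [Units.val_pow_eq_pow_val, Units.val_pow_eq_pow_val]
    exact (Commute.refl _).pow_pow _ _
  exact (Commute.mul_left (h2.mul_right (h1 a M).symm) ((h1 b N).mul_right h3)).eq

end alg

end Vale.Agent.P241.KP
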